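import Mathlib
import Vale.Agent.Lib.P137.helper41.Defs

/-!
# P137 bridge, leaf BR3 (backup copy by helper1): the radial derivative is bounded by the
norm of the Frechet derivative of a radial function
-/

namespace Vale.Agent.Lib.P137.H1

open Vale.Agent.Lib.P137 MeasureTheory Metric Set Filter
open scoped ENNReal NNReal Topology

theorem abs_deriv_le_enorm_fderiv_radial {d : ℕ} (F : ℝ → ℝ) (x : E d) (hx : x ≠ 0) :
    ENNReal.ofReal |deriv F ‖x‖| ≤ ‖fderiv ℝ (fun z : E d => F ‖z‖) x‖ₑ := by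
  by_cases hF : DifferentiableAt ℝ F ‖x‖
  · have hn : DifferentiableAt ℝ (fun z : E d => ‖z‖) x :=
      (differentiableAt_id (𝕜 := ℝ) (x := x)).norm ℝ hx
    have hdiff : DifferentiableAt ℝ (fun z : E d => F ‖z‖) x :=
      DifferentiableAt.comp x hF hn
    have hf := hdiff.hasFDerivAt
    have ht0 : 0 < ‖x‖ := norm_pos_iff.2 hx
    obtain ⟨v, hv⟩ : ∃ v : E d, v = (‖x‖)⁻¹ • x := ⟨_, rfl⟩
    have hvn : ‖v‖ = 1 := by
      rw [hv, norm_smul, norm_inv, norm_norm, inv_mul_cancel₀ ht0.ne']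
    have hxv : ‖x‖ • v = x := by
      rw [hv, smul_smul, mul_inv_cancel₀ ht0.ne', one_smul]
    have hc : HasDerivAt (fun t : ℝ => t • v) v ‖x‖ := by
      have h := (hasDerivAt_id ‖x‖).smul_const v
      simpa using h
    have hf' : HasFDerivAt (fun z : E d => F ‖z‖)
        (fderiv ℝ (fun z : E d => F ‖z‖) x) (‖x‖ • v) := by
      rw [hxv]
      exact hf
    have hcomp : HasDerivAt (fun t : ℝ => F ‖t • v‖)
        (fderiv ℝ (fun z : E d => F ‖z‖) x v) ‖x‖ :=
      HasFDerivAt.comp_hasDerivAt (f := fun t : ℝ => t • v) ‖x‖ hf' hc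
    have hev : F =ᶠ[𝓝 ‖x‖] fun t : ℝ => F ‖t • v‖ := by
      filter_upwards [lt_mem_nhds ht0] with t ht
      rw [norm_smul, hvn, mul_one, Real.norm_of_nonneg ht.le]
    have hd : deriv F ‖x‖ = fderiv ℝ (fun z : E d => F ‖z‖) x v :=
      (hcomp.congr_of_eventuallyEq hev).deriv
    rw [hd, ← ofReal_norm]
    refine ENNReal.ofReal_le_ofReal ?_
    have h1 := (fderiv ℝ (fun z : E d => F ‖z‖) x).le_opNorm v
    rw [hvn, mul_one, Real.norm_eq_abs] at h1
    exact h1
  · rw [deriv_zero_of_not_differentiableAt hF, abs_zero, ENNReal.ofReal_zero]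
    exact zero_le

end Vale.Agent.Lib.P137.H1
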