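import Mathlib
import Vale.Agent.Lib.P137.helper41.Defs

/-!
# P137 bridge, leaf BR6 (backup copy by helper1): the tail integral of the derivative of a
nonnegative antitone function
-/

namespace Vale.Agent.Lib.P137.H1

open Vale.Agent.Lib.P137 MeasureTheory Metric Set Filter
open scoped ENNReal NNReal Topology

/-- The derivative of an antitone function is nonpositive everywhere (it is `0` where the
function is not differentiable). -/
theorem jF_deriv_nonpos (G : ℝ → ℝ) (hG : Antitone G) (s : ℝ) : deriv G s ≤ 0 := by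
  have hm : MonotoneOn (fun t => -G t) univ := fun a _ b _ hab => neg_le_neg (hG hab)
  have h1 : 0 ≤ derivWithin (fun t => -G t) univ s := hm.derivWithin_nonneg
  rw [derivWithin_univ] at h1
  have h2 : deriv (fun t => -G t) s = -deriv G s := deriv.fun_neg
  linarith

/-- On a bounded interval the integral of `|G'|` is at most `G ρ`. -/
theorem jF_piece (G : ℝ → ℝ) (hG : Antitone G) (hG0 : ∀ t, 0 ≤ G t) (ρ b : ℝ) (hb : ρ ≤ b) :
    ∫⁻ s in Ioc ρ b, ENNReal.ofReal |deriv G s| ≤ ENNReal.ofReal (G ρ) := by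
  have hm : MonotoneOn (fun t => -G t) (uIcc ρ b) := fun x _ y _ hxy => neg_le_neg (hG hxy)
  have hint := hm.intervalIntegrable_deriv
  have hmem := hm.intervalIntegral_deriv_mem_uIcc
  have hle : -G ρ ≤ -G b := neg_le_neg (hG hb)
  rw [uIcc_of_le (by linarith), mem_Icc] at hmem
  have hio : IntegrableOn (deriv fun t => -G t) (Ioc ρ b) volume :=
    (intervalIntegrable_iff_integrableOn_Ioc_of_le hb).1 hint
  have habs : ∀ s, |deriv G s| = deriv (fun t => -G t) s := by
    intro s
    have h2 : deriv (fun t => -G t) s = -deriv G s := deriv.fun_neg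
    rw [h2, abs_of_nonpos (jF_deriv_nonpos G hG s)]
  have hnn : 0 ≤ᵐ[volume.restrict (Ioc ρ b)] (deriv fun t => -G t) :=
    Eventually.of_forall fun s => by
      show 0 ≤ deriv (fun t => -G t) s
      rw [← habs s]
      exact abs_nonneg _
  have e1 : ∫⁻ s in Ioc ρ b, ENNReal.ofReal |deriv G s|
      = ENNReal.ofReal (∫ s in Ioc ρ b, deriv (fun t => -G t) s) := by
    rw [ofReal_integral_eq_lintegral_ofReal hio hnn]
    refine lintegral_congr fun s => ?_
    rw [habs s]
  rw [e1, ← intervalIntegral.integral_of_le hb]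
  refine ENNReal.ofReal_le_ofReal ?_
  have := hG0 b
  linarith [hmem.2]

theorem tail_deriv_le (G : ℝ → ℝ) (hG : Antitone G) (hG0 : ∀ t, 0 ≤ G t) (ρ : ℝ) :
    ∫⁻ s in Ioi ρ, ENNReal.ofReal |deriv G s| ≤ ENNReal.ofReal (G ρ) := by
  have hU : Ioi ρ = ⋃ N : ℕ, Ioc ρ (ρ + N + 1) := by
    ext s
    simp only [mem_Ioi, mem_iUnion, mem_Ioc]
    constructor
    · intro hs
      obtain ⟨N, hN⟩ := exists_nat_ge (s - ρ)
      exact ⟨N, hs, by linarith⟩
    · rintro ⟨N, hs, -⟩
      exact hs
  have hd : Directed (· ⊆ ·) fun N : ℕ => Ioc ρ (ρ + N + 1) := by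
    refine Monotone.directed_le ?_
    intro M N hMN
    refine Ioc_subset_Ioc_right ?_
    have : (M : ℝ) ≤ N := by exact_mod_cast hMN
    linarith
  rw [hU, setLIntegral_iUnion_of_directed _ hd]
  refine iSup_le fun N => ?_
  refine jF_piece G hG hG0 ρ (ρ + N + 1) ?_
  have : (0 : ℝ) ≤ N := Nat.cast_nonneg N
  linarith

end Vale.Agent.Lib.P137.H1
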